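import Vale.Agent.P167.H558.Stop2

/-!
# P167, block E3 = MARKOV, part 3: successive fresh events
-/

set_option linter.unusedSectionVars false
set_option linter.unusedVariables false

namespace Vale.Agent.P167.H558

open MeasureTheory Set
open scoped ENNReal

variable {ι β : Type*} [Countable ι]
variable [MeasurableSpace β] [MeasurableSingletonClass β] [Countable β]
variable (ν : Measure β) [IsProbabilityMeasure ν]

/-- **Successive fresh events**: nested stopping sets `R 0 ≤ R 1 ≤ …`, events `B j` determined by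
the past of `R (j + 1)`, each of conditional probability at most `q` given the past of `R j` (on the
event that the previous ones occur): `m` of them occur with probability at most `q ^ m`. -/
theorem succ_le {R : ℕ → (ι → β) → Finset ι} (hR : Expl R) {B : ℕ → (ι → β) → Prop}
    (hB : ∀ j, Past (R (j + 1)) (B j)) {q : ℝ≥0∞} (m : ℕ)
    (h : ∀ j < m, ∀ ω, (∀ i < j, B i ω) →
      (Pm ν ι) {ω' | B j (glue (↑(R j ω)) ω ω')} ≤ q) :
    (Pm ν ι) {ω | ∀ i < m, B i ω} ≤ q ^ m := by
  induction m with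
  | zero =>
    simp
  | succ m ih =>
    have hpast : Past (R m) (fun ω => ∀ i < m, B i ω) := by
      intro ω ω' hω
      refine propext ⟨fun h1 i hi => ?_, fun h1 i hi => ?_⟩
      · rw [← (hB i).mono (fun ω => hR.mono ω (Nat.succ_le_of_lt hi)) ω ω' hω]
        exact h1 i hi
      · rw [(hB i).mono (fun ω => hR.mono ω (Nat.succ_le_of_lt hi)) ω ω' hω]
        exact h1 i hi
    have hm : MeasurableSet {ω | B m ω} := (hB m).measurableSet {p | p}
    have h1 := stop_le ν (hR.stop m) hpast hm (q := q) (fun ω hω => h m (Nat.lt_succ_self m) ω hω)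
    have h2 : {ω | ∀ i < m + 1, B i ω} = {ω | ∀ i < m, B i ω} ∩ {ω | B m ω} := by
      ext ω
      simp only [mem_ofPred_eq, mem_inter_iff]
      constructor
      · exact fun h3 => ⟨fun i hi => h3 i (hi.trans (Nat.lt_succ_self m)),
          h3 m (Nat.lt_succ_self m)⟩
      · rintro ⟨h3, h4⟩ i hi
        rcases Nat.lt_succ_iff_lt_or_eq.1 hi with h5 | h5
        · exact h3 i h5
        · exact h5 ▸ h4
    rw [h2, pow_succ']
    exact h1.trans (by gcongr; exact ih fun j hj => h j (hj.trans (Nat.lt_succ_self m)))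

/-- The same for stopping times of an exploration. -/
theorem succ_time_le {R : ℕ → (ι → β) → Finset ι} (hR : Expl R) {κ : ℕ → (ι → β) → ℕ}
    (hκ : ∀ j, StopTime R (κ j)) (hmono : ∀ ω, Monotone fun j => κ j ω)
    {B : ℕ → (ι → β) → Prop} (hB : ∀ j, Past (at' R (κ (j + 1))) (B j)) {q : ℝ≥0∞} (m : ℕ)
    (h : ∀ j < m, ∀ ω, (∀ i < j, B i ω) →
      (Pm ν ι) {ω' | B j (glue (↑(R (κ j ω) ω)) ω ω')} ≤ q) :
    (Pm ν ι) {ω | ∀ i < m, B i ω} ≤ q ^ m :=
  succ_le ν (R := fun j => at' R (κ j))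
    ⟨fun j => hR.at_stop (hκ j), fun ω i j hij => hR.mono ω (hmono ω hij)⟩ hB m h

/-- Union bound: if `E` implies `N > M` or one of the events `B j`, `j < M`, each of which has
probability at most `q`. -/
theorem union_le {Ω : Type*} [MeasurableSpace Ω] (P : Measure Ω) {E F : Set Ω} {B : ℕ → Set Ω}
    {M : ℕ} {q : ℝ≥0∞} (hE : E ⊆ F ∪ ⋃ j ∈ Finset.range M, B j) (hB : ∀ j < M, P (B j) ≤ q) :
    P E ≤ P F + M * q := by
  refine (measure_mono hE).trans ((measure_union_le _ _).trans ?_)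
  gcongr
  refine (measure_biUnion_finset_le _ _).trans ?_
  refine (Finset.sum_le_sum fun j hj => hB j (Finset.mem_range.1 hj)).trans ?_
  simp

/-- Doubly indexed union bound. -/
theorem union_le₂ {Ω : Type*} [MeasurableSpace Ω] (P : Measure Ω) {E F : Set Ω}
    {B : ℕ → ℕ → Set Ω} {M : ℕ} {q : ℝ≥0∞}
    (hE : E ⊆ F ∪ ⋃ j ∈ Finset.range M, ⋃ k ∈ Finset.range M, B j k)
    (hB : ∀ j < M, ∀ k < M, P (B j k) ≤ q) :
    P E ≤ P F + M * (M * q) := by
  refine union_le P hE fun j hj => ?_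
  refine (measure_biUnion_finset_le _ _).trans ?_
  refine (Finset.sum_le_sum fun k hk => hB j hj k (Finset.mem_range.1 hk)).trans ?_
  simp

/-! ### The tower property and restarted explorations -/

/-- A stopping set read off the glued configuration: `ω' ↦ R' (glue (R ω) ω ω')` is a stopping set
for the fresh configuration. -/
theorem StopSet.fresh {R' : (ι → β) → Finset ι} (hR' : StopSet R') (K : Set ι) (ω : ι → β) :
    StopSet (fun ω' => R' (H558.glue K ω ω')) := by
  classical
  intro ω₁ ω₂ h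
  refine hR' _ _ fun i hi => ?_
  by_cases hK : i ∈ K
  · rw [glue_mem hK, glue_mem hK]
  · rw [glue_not_mem hK, glue_not_mem hK]
    exact h i hi

theorem glue_glue {K K' : Set ι} (h : K ⊆ K') (ω ω' ω'' : ι → β) :
    glue K' (glue K ω ω') ω'' = glue K ω (glue K' ω' ω'') := by
  classical
  funext i
  by_cases hK : i ∈ K
  · rw [glue_mem (h hK), glue_mem hK, glue_mem hK]
  · by_cases hK' : i ∈ K'
    · rw [glue_mem hK', glue_not_mem hK, glue_not_mem hK, glue_mem hK']
    · rw [glue_not_mem hK', glue_not_mem hK, glue_not_mem hK']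

/-- **Tower property**, pointwise. -/
theorem ce_ce {R R' : (ι → β) → Finset ι} (hR : StopSet R) (hR' : StopSet R')
    (hle : ∀ ω, R ω ⊆ R' ω) {f : (ι → β) → ℝ} (hf : Measurable f) {C : ℝ}
    (hfC : ∀ ω, |f ω| ≤ C) (ω : ι → β) :
    ce ν R (ce ν R' f) ω = ce ν R f ω := by
  have hK : ∀ ω', (↑(R ω) : Set ι) ⊆ ↑(R' (glue (↑(R ω)) ω ω')) := by
    intro ω'
    have := hle (glue (↑(R ω)) ω ω')
    rw [hR.glue ω ω'] at this
    exact Finset.coe_subset.2 this
  have hg : Measurable fun ω' : ι → β => glue (↑(R ω) : Set ι) ω ω' :=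
    (measurable_glue (β := β) (↑(R ω) : Set ι)).comp
      (show Measurable fun ω' : ι → β => (ω, ω') from measurable_prodMk_left)
  have hF : Measurable fun ω' => f (glue (↑(R ω) : Set ι) ω ω') := hf.comp hg
  have hi : Integrable (fun ω' => f (glue (↑(R ω) : Set ι) ω ω')) (Pm ν ι) :=
    Integrable.of_bound hF.aestronglyMeasurable C (ae_of_all _ fun ω' => hfC _)
  show ∫ ω', ce ν R' f (glue (↑(R ω)) ω ω') ∂(Pm ν ι) = ∫ ω', f (glue (↑(R ω)) ω ω') ∂(Pm ν ι)
  rw [integral_stop ν (hR'.fresh (↑(R ω)) ω) hF hi]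
  refine integral_congr_ae (ae_of_all _ fun ω' => ?_)
  show ∫ ω'', f _ ∂(Pm ν ι) = ∫ ω'', f _ ∂(Pm ν ι)
  refine integral_congr_ae (ae_of_all _ fun ω'' => ?_)
  show f _ = f _
  rw [glue_glue (hK ω')]

end Vale.Agent.P167.H558
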