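import Vale.Agent.P167.H558.Stop

/-!
# P167, block E3 = MARKOV, part 2: conditional expectations, optional stopping, fresh events

* `ce R f ω = ∫ f (glue (R ω) ω ω') dω'`: the conditional expectation given the past of `R`.
* `integral_ce`: `∫ ce R f * Y = ∫ f * Y` for past `Y`.
* `optional`: for two nested stopping sets, `∫ (ce R' f - ce R f) * Y = 0`.
* `stop_le`, `le_stop`: events given the past.
-/

set_option linter.unusedSectionVars false
set_option linter.unusedVariables false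

namespace Vale.Agent.P167.H558

open MeasureTheory Set
open scoped ENNReal

variable {ι β : Type*} [Countable ι]

/-! ### Past -/

theorem Past.mono {γ : Type*} {R R' : (ι → β) → Finset ι} {Y : (ι → β) → γ} (hY : Past R Y)
    (h : ∀ ω, R ω ⊆ R' ω) : Past R' Y :=
  fun ω ω' hω => hY ω ω' fun i hi => hω i (h ω hi)

theorem Past.comp {γ δ : Type*} {R : (ι → β) → Finset ι} {Y : (ι → β) → γ} (hY : Past R Y)
    (g : γ → δ) : Past R (fun ω => g (Y ω)) :=
  fun ω ω' hω => congrArg g (hY ω ω' hω)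

theorem Past.pair {γ δ : Type*} {R : (ι → β) → Finset ι} {Y : (ι → β) → γ} {Z : (ι → β) → δ}
    (hY : Past R Y) (hZ : Past R Z) : Past R (fun ω => (Y ω, Z ω)) :=
  fun ω ω' hω => Prod.ext (hY ω ω' hω) (hZ ω ω' hω)

theorem Past.const {γ : Type*} {R : (ι → β) → Finset ι} (c : γ) : Past R (fun _ => c) :=
  fun _ _ _ => rfl

theorem Past.congr_right {R : (ι → β) → Finset ι} (hR : StopSet R) {ω ω' : ι → β}
    (h : ∀ i ∈ R ω, ω' i = ω i) : ∀ i ∈ R ω', ω i = ω' i := by
  intro i hi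
  rw [hR ω ω' h] at hi
  exact (h i hi).symm

/-- the value of one coordinate of the stopping set -/
theorem Past.eval {R : (ι → β) → Finset ι} (hR : StopSet R) [Inhabited β] [DecidableEq ι] (i : ι) :
    Past R (fun ω => if i ∈ R ω then ω i else default) := by
  intro ω ω' h
  show (if i ∈ R ω' then ω' i else default) = if i ∈ R ω then ω i else default
  rw [hR ω ω' h]
  split_ifs with hi
  · exact h i hi
  · rfl

/-! ### Stopping times -/

/-- An exploration: an increasing sequence of stopping sets. -/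
structure Expl (R : ℕ → (ι → β) → Finset ι) : Prop where
  stop : ∀ k, StopSet (R k)
  mono : ∀ ω, Monotone fun k => R k ω

/-- `κ` is a stopping time of the exploration `R`: the event `κ = k` is determined by the past at
time `k`. -/
def StopTime (R : ℕ → (ι → β) → Finset ι) (κ : (ι → β) → ℕ) : Prop :=
  ∀ ω ω' : ι → β, (∀ i ∈ R (κ ω) ω, ω' i = ω i) → κ ω' = κ ω

/-- The stopping set of a stopping time. -/
def at' (R : ℕ → (ι → β) → Finset ι) (κ : (ι → β) → ℕ) : (ι → β) → Finset ι :=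
  fun ω => R (κ ω) ω

theorem StopTime.const (R : ℕ → (ι → β) → Finset ι) (k : ℕ) : StopTime R (fun _ => k) :=
  fun _ _ _ => rfl

theorem Expl.at_stop {R : ℕ → (ι → β) → Finset ι} (hR : Expl R) {κ : (ι → β) → ℕ}
    (hκ : StopTime R κ) : StopSet (at' R κ) := by
  intro ω ω' h
  have h1 := hκ ω ω' h
  unfold at'
  rw [h1]
  exact hR.stop _ ω ω' h

theorem Expl.at_mono {R : ℕ → (ι → β) → Finset ι} (hR : Expl R) {κ κ' : (ι → β) → ℕ}
    (h : ∀ ω, κ ω ≤ κ' ω) (ω : ι → β) : at' R κ ω ⊆ at' R κ' ω := hR.mono ω (h ω)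

/-- The usual criterion: `κ` is the first time at which an adapted property holds. -/
theorem Expl.first {R : ℕ → (ι → β) → Finset ι} (hR : Expl R) {κ : (ι → β) → ℕ}
    {Q : ℕ → (ι → β) → Prop} (hQ : ∀ k, Past (R k) (Q k))
    (h1 : ∀ ω, Q (κ ω) ω) (h2 : ∀ ω, ∀ k < κ ω, ¬ Q k ω) : StopTime R κ := by
  intro ω ω' h
  have hk : ∀ k ≤ κ ω, Q k ω' = Q k ω := fun k hk =>
    hQ k ω ω' fun i hi => h i (hR.mono ω hk hi)
  rcases lt_trichotomy (κ ω') (κ ω) with h3 | h3 | h3
  · exact absurd (h1 ω') (by rw [hk _ h3.le]; exact h2 ω _ h3)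
  · exact h3
  · exact absurd (by rw [hk _ le_rfl]; exact h1 ω) (h2 ω' _ h3)

/-- The same with a final time `N`: `κ = N` if the property does not hold before. -/
theorem Expl.firstLe {R : ℕ → (ι → β) → Finset ι} (hR : Expl R) {κ : (ι → β) → ℕ}
    {Q : ℕ → (ι → β) → Prop} (hQ : ∀ k, Past (R k) (Q k)) (N : ℕ) (h0 : ∀ ω, κ ω ≤ N)
    (h1 : ∀ ω, κ ω < N → Q (κ ω) ω) (h2 : ∀ ω, ∀ k < κ ω, ¬ Q k ω) : StopTime R κ := by
  refine hR.first (Q := fun k ω => Q k ω ∨ N ≤ k) (fun k => ?_) (fun ω => ?_) (fun ω k hk => ?_)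
  · exact (hQ k).comp (fun q => q ∨ N ≤ k)
  · rcases lt_or_ge (κ ω) N with h | h
    · exact Or.inl (h1 ω h)
    · exact Or.inr h
  · rintro (h | h)
    · exact h2 ω k hk h
    · exact absurd (hk.trans_le (h0 ω)) (not_lt.2 h)

theorem StopTime.min {R : ℕ → (ι → β) → Finset ι} (hR : Expl R) {κ κ' : (ι → β) → ℕ}
    (h : StopTime R κ) (h' : StopTime R κ') : StopTime R (fun ω => Nat.min (κ ω) (κ' ω)) := by
  intro ω ω' hω
  rcases le_total (κ ω) (κ' ω) with h1 | h1
  · have e : Nat.min (κ ω) (κ' ω) = κ ω := Nat.min_eq_left h1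
    simp only [e] at hω
    have e2 : κ ω' = κ ω := h ω ω' hω
    show Nat.min (κ ω') (κ' ω') = Nat.min (κ ω) (κ' ω)
    rw [e, e2]
    refine Nat.min_eq_left ?_
    by_contra hc
    push Not at hc
    -- `κ' ω' < κ ω`, and then `κ' ω = κ' ω'`
    have h3 : ∀ i ∈ R (κ' ω') ω', ω i = ω' i := by
      have h5 : R (κ ω) ω' = R (κ ω) ω := hR.stop _ ω ω' hω
      intro i hi
      exact (hω i (h5 ▸ hR.mono ω' hc.le hi)).symm
    have h4 := h' ω' ω h3
    omega
  · have e : Nat.min (κ ω) (κ' ω) = κ' ω := Nat.min_eq_right h1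
    simp only [e] at hω
    have e2 : κ' ω' = κ' ω := h' ω ω' hω
    show Nat.min (κ ω') (κ' ω') = Nat.min (κ ω) (κ' ω)
    rw [e, e2]
    refine Nat.min_eq_right ?_
    by_contra hc
    push Not at hc
    have h3 : ∀ i ∈ R (κ ω') ω', ω i = ω' i := by
      have h5 : R (κ' ω) ω' = R (κ' ω) ω := hR.stop _ ω ω' hω
      intro i hi
      exact (hω i (h5 ▸ hR.mono ω' hc.le hi)).symm
    have h4 := h ω' ω h3
    omega

section disc

variable [MeasurableSpace β] [MeasurableSingletonClass β] [Countable β]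
variable (ν : Measure β) [IsProbabilityMeasure ν]

/-- Real version of resampling. -/
theorem integral_stop {R : (ι → β) → Finset ι} (hR : StopSet R) {F : (ι → β) → ℝ}
    (hF : Measurable F) (hi : Integrable F (Pm ν ι)) :
    ∫ ω, F ω ∂(Pm ν ι) = ∫ ω, ∫ ω', F (glue (↑(R ω)) ω ω') ∂(Pm ν ι) ∂(Pm ν ι) := by
  have hi' := hi
  rw [← map_stop ν hR] at hi'
  have hi2 : Integrable (fun p : (ι → β) × (ι → β) => F (glue (↑(R p.1)) p.1 p.2))
      ((Pm ν ι).prod (Pm ν ι)) :=
    (integrable_map_measure hF.aestronglyMeasurable (measurable_glue_stop hR).aemeasurable).1 hi'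
  conv_lhs => rw [← map_stop ν hR]
  rw [integral_map (measurable_glue_stop hR).aemeasurable hF.aestronglyMeasurable]
  exact integral_prod _ hi2

/-- The conditional expectation of `f` given the past of `R`. -/
noncomputable def ce (R : (ι → β) → Finset ι) (f : (ι → β) → ℝ) (ω : ι → β) : ℝ :=
  ∫ ω', f (glue (↑(R ω)) ω ω') ∂(Pm ν ι)

theorem glue_congr {K : Set ι} {ω₁ ω₂ : ι → β} (h : ∀ i ∈ K, ω₁ i = ω₂ i) (ω' : ι → β) :
    glue K ω₁ ω' = glue K ω₂ ω' := by
  classical
  funext i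
  by_cases hi : i ∈ K
  · rw [glue_mem hi, glue_mem hi, h i hi]
  · rw [glue_not_mem hi, glue_not_mem hi]

theorem ce_past {R : (ι → β) → Finset ι} (hR : StopSet R) (f : (ι → β) → ℝ) :
    Past R (ce ν R f) := by
  intro ω ω' h
  unfold ce
  rw [hR ω ω' h]
  refine integral_congr_ae (ae_of_all _ fun ω'' => ?_)
  show f _ = f _
  rw [glue_congr (fun i hi => h i (Finset.mem_coe.1 hi))]

theorem ce_of_past {R : (ι → β) → Finset ι} {f : (ι → β) → ℝ} (hf : Past R f) (ω : ι → β) :
    ce ν R f ω = f ω := by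
  unfold ce
  simp_rw [hf.glue ω]
  simp

theorem ce_nonneg {R : (ι → β) → Finset ι} {f : (ι → β) → ℝ} (h : ∀ ω, 0 ≤ f ω) (ω : ι → β) :
    0 ≤ ce ν R f ω := integral_nonneg fun _ => h _

theorem ce_abs_le {R : (ι → β) → Finset ι} {f : (ι → β) → ℝ} {C : ℝ} (h : ∀ ω, |f ω| ≤ C)
    (ω : ι → β) : |ce ν R f ω| ≤ C := by
  unfold ce
  have := norm_integral_le_of_norm_le_const (μ := Pm ν ι)
    (f := fun ω' => f (glue (↑(R ω)) ω ω')) (C := C) (ae_of_all _ fun ω' => h _)
  simpa using this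

theorem ce_le {R : (ι → β) → Finset ι} {f : (ι → β) → ℝ} {C : ℝ} (hf : Measurable f)
    (h0 : ∀ ω, 0 ≤ f ω) (h : ∀ ω, f ω ≤ C) (ω : ι → β) : ce ν R f ω ≤ C :=
  (le_abs_self _).trans (ce_abs_le ν (fun ω => by rw [abs_of_nonneg (h0 ω)]; exact h ω) ω)

/-- **The defining property of the conditional expectation.** -/
theorem integral_ce {R : (ι → β) → Finset ι} (hR : StopSet R) {f Y : (ι → β) → ℝ}
    (hf : Measurable f) {C : ℝ} (hfC : ∀ ω, |f ω| ≤ C) (hY : Past R Y) {C' : ℝ}
    (hYC : ∀ ω, |Y ω| ≤ C') :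
    ∫ ω, ce ν R f ω * Y ω ∂(Pm ν ι) = ∫ ω, f ω * Y ω ∂(Pm ν ι) := by
  have hC : 0 ≤ C := (abs_nonneg _).trans (hfC (fun i => (by
    haveI : Nonempty β := nonempty_of_isProbabilityMeasure ν
    exact Classical.arbitrary β)))
  have hm : Measurable fun ω => f ω * Y ω := hf.mul hY.measurable
  have hint : Integrable (fun ω => f ω * Y ω) (Pm ν ι) := by
    refine Integrable.of_bound hm.aestronglyMeasurable (C * C') (ae_of_all _ fun ω => ?_)
    rw [Real.norm_eq_abs, abs_mul]
    exact mul_le_mul (hfC ω) (hYC ω) (abs_nonneg _) hC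
  rw [integral_stop ν hR hm hint]
  refine integral_congr_ae (ae_of_all _ fun ω => ?_)
  show ce ν R f ω * Y ω = _
  unfold ce
  rw [← integral_mul_const]
  refine integral_congr_ae (ae_of_all _ fun ω' => ?_)
  show f _ * Y ω = f _ * Y _
  rw [hY.glue ω]

/-- **Optional stopping.** -/
theorem optional {R R' : (ι → β) → Finset ι} (hR : StopSet R) (hR' : StopSet R')
    (hle : ∀ ω, R ω ⊆ R' ω) {f Y : (ι → β) → ℝ}
    (hf : Measurable f) {C : ℝ} (hfC : ∀ ω, |f ω| ≤ C) (hY : Past R Y) {C' : ℝ}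
    (hYC : ∀ ω, |Y ω| ≤ C') :
    ∫ ω, (ce ν R' f ω - ce ν R f ω) * Y ω ∂(Pm ν ι) = 0 := by
  have h1 := integral_ce ν hR hf hfC hY hYC
  have h2 := integral_ce ν hR' hf hfC (hY.mono hle) hYC
  have hC : 0 ≤ C := (abs_nonneg _).trans (hfC (fun i => (by
    haveI : Nonempty β := nonempty_of_isProbabilityMeasure ν
    exact Classical.arbitrary β)))
  have hint : ∀ R'' : (ι → β) → Finset ι, StopSet R'' →
      Integrable (fun ω => ce ν R'' f ω * Y ω) (Pm ν ι) := by
    intro R'' hR''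
    refine Integrable.of_bound
      ((ce_past ν hR'' f).measurable.mul hY.measurable).aestronglyMeasurable
      (C * C') (ae_of_all _ fun ω => ?_)
    rw [Real.norm_eq_abs, abs_mul]
    exact mul_le_mul (ce_abs_le ν hfC ω) (hYC ω) (abs_nonneg _) hC
  simp_rw [sub_mul]
  rw [integral_sub (hint R' hR') (hint R hR), h1, h2, sub_self]

/-- Optional stopping for stopping times of an exploration. -/
theorem Expl.optional {R : ℕ → (ι → β) → Finset ι} (hR : Expl R) {κ κ' : (ι → β) → ℕ}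
    (hκ : StopTime R κ) (hκ' : StopTime R κ') (hle : ∀ ω, κ ω ≤ κ' ω) {f Y : (ι → β) → ℝ}
    (hf : Measurable f) {C : ℝ} (hfC : ∀ ω, |f ω| ≤ C) (hY : Past (at' R κ) Y) {C' : ℝ}
    (hYC : ∀ ω, |Y ω| ≤ C') :
    ∫ ω, (ce ν (R (κ' ω)) f ω - ce ν (R (κ ω)) f ω) * Y ω ∂(Pm ν ι) = 0 :=
  H558.optional ν (hR.at_stop hκ) (hR.at_stop hκ') (hR.at_mono hle) hf hfC hY hYC

/-! ### Events given the past -/

/-- Upper bound for the probability of an event given the past. -/
theorem stop_le {R : (ι → β) → Finset ι} (hR : StopSet R) {Y : (ι → β) → Prop} (hY : Past R Y)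
    {B : Set (ι → β)} (hB : MeasurableSet B) {q : ℝ≥0∞}
    (h : ∀ ω, Y ω → (Pm ν ι) {ω' | glue (↑(R ω)) ω ω' ∈ B} ≤ q) :
    (Pm ν ι) ({ω | Y ω} ∩ B) ≤ q * (Pm ν ι) {ω | Y ω} := by
  classical
  have hYm : MeasurableSet {ω | Y ω} := hY.measurableSet {p | p}
  have hsec : ∀ ω : ι → β, Measurable fun ω' => glue (↑(R ω) : Set ι) ω ω' := fun ω =>
    (measurable_glue (β := β) (↑(R ω) : Set ι)).comp
      (show Measurable fun ω' : ι → β => (ω, ω') from measurable_prodMk_left)
  rw [← lintegral_indicator_one (hYm.inter hB),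
    lintegral_stop ν hR (measurable_one.indicator (hYm.inter hB))]
  calc ∫⁻ ω, ∫⁻ ω', ({ω | Y ω} ∩ B).indicator 1 (glue (↑(R ω)) ω ω') ∂(Pm ν ι) ∂(Pm ν ι)
      ≤ ∫⁻ ω, {ω | Y ω}.indicator (fun _ => q) ω ∂(Pm ν ι) := by
        refine lintegral_mono fun ω => ?_
        by_cases hω : Y ω
        · rw [indicator_of_mem (show ω ∈ {ω | Y ω} from hω)]
          refine le_trans (le_of_eq ?_) (h ω hω)
          rw [← lintegral_indicator_one (show MeasurableSet {ω' | glue (↑(R ω) : Set ι) ω ω' ∈ B}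
            from (hsec ω) hB)]
          refine lintegral_congr fun ω' => ?_
          by_cases hb : glue (↑(R ω)) ω ω' ∈ B
          · rw [indicator_of_mem, indicator_of_mem]
            · rfl
            · exact hb
            · refine ⟨?_, hb⟩
              show Y _
              rw [hY.glue ω]; exact hω
          · rw [indicator_of_notMem, indicator_of_notMem]
            · exact hb
            · exact fun h' => hb h'.2
        · rw [indicator_of_notMem (show ω ∉ {ω | Y ω} from hω)]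
          refine le_of_eq ?_
          rw [← lintegral_zero (μ := Pm ν ι)]
          refine lintegral_congr fun ω' => ?_
          refine indicator_of_notMem ?_ _
          rintro ⟨h1, -⟩
          apply hω
          have : Y (glue (↑(R ω)) ω ω') := h1
          rwa [hY.glue ω] at this
    _ = q * (Pm ν ι) {ω | Y ω} := by
        rw [lintegral_indicator hYm, lintegral_const, Measure.restrict_apply_univ]

/-- Lower bound for the probability of an event given the past. -/
theorem le_stop {R : (ι → β) → Finset ι} (hR : StopSet R) {Y : (ι → β) → Prop} (hY : Past R Y)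
    {B : Set (ι → β)} (hB : MeasurableSet B) {q : ℝ≥0∞}
    (h : ∀ ω, Y ω → q ≤ (Pm ν ι) {ω' | glue (↑(R ω)) ω ω' ∈ B}) :
    q * (Pm ν ι) {ω | Y ω} ≤ (Pm ν ι) ({ω | Y ω} ∩ B) := by
  classical
  have hYm : MeasurableSet {ω | Y ω} := hY.measurableSet {p | p}
  have hsec : ∀ ω : ι → β, Measurable fun ω' => glue (↑(R ω) : Set ι) ω ω' := fun ω =>
    (measurable_glue (β := β) (↑(R ω) : Set ι)).comp
      (show Measurable fun ω' : ι → β => (ω, ω') from measurable_prodMk_left)
  rw [← lintegral_indicator_one (hYm.inter hB),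
    lintegral_stop ν hR (measurable_one.indicator (hYm.inter hB))]
  calc q * (Pm ν ι) {ω | Y ω} = ∫⁻ ω, {ω | Y ω}.indicator (fun _ => q) ω ∂(Pm ν ι) := by
        rw [lintegral_indicator hYm, lintegral_const, Measure.restrict_apply_univ]
    _ ≤ ∫⁻ ω, ∫⁻ ω', ({ω | Y ω} ∩ B).indicator 1 (glue (↑(R ω)) ω ω') ∂(Pm ν ι) ∂(Pm ν ι) := by
        refine lintegral_mono fun ω => ?_
        by_cases hω : Y ω
        · rw [indicator_of_mem (show ω ∈ {ω | Y ω} from hω)]
          refine (h ω hω).trans (le_of_eq ?_)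
          rw [← lintegral_indicator_one (show MeasurableSet {ω' | glue (↑(R ω) : Set ι) ω ω' ∈ B}
            from (hsec ω) hB)]
          refine lintegral_congr fun ω' => ?_
          by_cases hb : glue (↑(R ω)) ω ω' ∈ B
          · rw [indicator_of_mem, indicator_of_mem]
            · rfl
            · refine ⟨?_, hb⟩
              show Y _
              rw [hY.glue ω]; exact hω
            · exact hb
          · rw [indicator_of_notMem, indicator_of_notMem]
            · exact fun h' => hb h'.2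
            · exact hb
        · rw [indicator_of_notMem (show ω ∉ {ω | Y ω} from hω)]
          exact bot_le

/-- **Fresh events.** `B` depends on past data `D` and looks only at fresh coordinates. -/
theorem fresh_le {γ : Type*} {R : (ι → β) → Finset ι} (hR : StopSet R) {Y : (ι → β) → Prop}
    (hY : Past R Y) {D : (ι → β) → γ} (hD : Past R D) {E : γ → Finset ι → (ι → β) → Prop}
    (hloc : ∀ c K ω ω', (∀ i ∉ K, ω' i = ω i) → E c K ω → E c K ω')
    (hm : MeasurableSet {ω | E (D ω) (R ω) ω}) {E' : γ → Set (ι → β)} {q : ℝ≥0∞}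
    (hE : ∀ c K ω, E c K ω → ω ∈ E' c) (hq : ∀ ω, Y ω → (Pm ν ι) (E' (D ω)) ≤ q) :
    (Pm ν ι) ({ω | Y ω} ∩ {ω | E (D ω) (R ω) ω}) ≤ q * (Pm ν ι) {ω | Y ω} := by
  refine stop_le ν hR hY hm fun ω hω => ?_
  refine (measure_mono fun ω' h' => ?_).trans (hq ω hω)
  have h1 : E (D (glue (↑(R ω)) ω ω')) (R (glue (↑(R ω)) ω ω')) (glue (↑(R ω)) ω ω') := h'
  rw [hD.glue ω, hR.glue ω] at h1
  refine hE (D ω) (R ω) ω' (hloc _ _ _ _ (fun i hi => ?_) h1)
  exact (glue_not_mem (fun h2 => hi (Finset.mem_coe.1 h2))).symm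

end disc

end Vale.Agent.P167.H558
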