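import Mathlib

/-!
# P167, block E3 = MARKOV, part 1: stopping sets and resampling

`μ` = product of copies of a probability measure `ν` on a countable discrete space `β`, indexed by a
countable type `ι`.  A stopping set is a finite random set `R ω` such that `R ω` is determined by the
restriction of `ω` to `R ω`.  Resampling outside a stopping set does not change the law.
-/

namespace Vale.Agent.P167.H558

open MeasureTheory Set
open scoped ENNReal

set_option linter.unusedSectionVars false
set_option linter.unusedVariables false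

variable {ι β : Type*} [Countable ι]

/-- `ω` on `K`, `ω'` off `K`. -/
noncomputable def glue (K : Set ι) (ω ω' : ι → β) : ι → β := by
  classical exact fun i => if i ∈ K then ω i else ω' i

theorem glue_mem {K : Set ι} {ω ω' : ι → β} {i : ι} (h : i ∈ K) : glue K ω ω' i = ω i := by
  classical
  unfold glue; exact if_pos h

theorem glue_not_mem {K : Set ι} {ω ω' : ι → β} {i : ι} (h : i ∉ K) : glue K ω ω' i = ω' i := by
  classical
  unfold glue; exact if_neg h

/-- A stopping set: `R ω` is determined by `ω` on `R ω`. -/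
def StopSet (R : (ι → β) → Finset ι) : Prop :=
  ∀ ω ω' : ι → β, (∀ i ∈ R ω, ω' i = ω i) → R ω' = R ω

/-- `Y` is determined by the past `ω` on `R ω`. -/
def Past {γ : Type*} (R : (ι → β) → Finset ι) (Y : (ι → β) → γ) : Prop :=
  ∀ ω ω' : ι → β, (∀ i ∈ R ω, ω' i = ω i) → Y ω' = Y ω

theorem StopSet.glue {R : (ι → β) → Finset ι} (h : StopSet R) (ω ω' : ι → β) :
    R (glue (↑(R ω)) ω ω') = R ω :=
  h ω _ fun i hi => glue_mem (Finset.mem_coe.2 hi)

theorem Past.glue {γ : Type*} {R : (ι → β) → Finset ι} {Y : (ι → β) → γ} (h : Past R Y)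
    (ω ω' : ι → β) : Y (H558.glue (↑(R ω)) ω ω') = Y ω :=
  h ω _ fun i hi => glue_mem (Finset.mem_coe.2 hi)

/-- For a fixed set `K`, `R (glue K ω ω') = K ↔ R ω = K`. -/
theorem StopSet.glue_eq_iff {R : (ι → β) → Finset ι} (h : StopSet R) (K : Finset ι)
    (ω ω' : ι → β) : R (H558.glue (↑K) ω ω') = K ↔ R ω = K := by
  constructor
  · intro h1
    have := h (H558.glue (↑K) ω ω') ω (fun i hi => by
      rw [h1] at hi
      rw [glue_mem (Finset.mem_coe.2 hi)])
    rw [this, h1]
  · intro h1
    subst h1
    exact h.glue ω ω'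

section meas

variable [MeasurableSpace β]

theorem measurable_glue (K : Set ι) :
    Measurable (fun p : (ι → β) × (ι → β) => glue K p.1 p.2) := by
  classical
  refine measurable_pi_lambda _ fun i => ?_
  by_cases hi : i ∈ K
  · have : (fun p : (ι → β) × (ι → β) => glue K p.1 p.2 i) = fun p => p.1 i := by
      funext p; exact glue_mem hi
    rw [this]
    exact (measurable_pi_apply i).comp measurable_fst
  · have : (fun p : (ι → β) × (ι → β) => glue K p.1 p.2 i) = fun p => p.2 i := by
      funext p; exact glue_not_mem hi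
    rw [this]
    exact (measurable_pi_apply i).comp measurable_snd

variable (ν : Measure β) [IsProbabilityMeasure ν]

/-- The product measure. -/
noncomputable def Pm (ι : Type*) : Measure (ι → β) := Measure.infinitePi (fun _ : ι => ν)

instance : IsProbabilityMeasure (Pm ν ι) := by unfold Pm; infer_instance

theorem map_glue (K : Set ι) :
    Measure.map (fun p : (ι → β) × (ι → β) => glue K p.1 p.2) ((Pm ν ι).prod (Pm ν ι)) = Pm ν ι := by
  classical
  refine Measure.eq_infinitePi (μ := fun _ : ι => ν) fun s t ht => ?_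
  have hms : MeasurableSet (Set.pi (↑s : Set ι) t) :=
    MeasurableSet.pi s.countable_toSet fun i _ => ht i
  rw [Measure.map_apply (measurable_glue K) hms]
  have hpre : (fun p : (ι → β) × (ι → β) => glue K p.1 p.2) ⁻¹' (Set.pi (↑s : Set ι) t) =
      (Set.pi (↑(s.filter (· ∈ K)) : Set ι) t) ×ˢ (Set.pi (↑(s.filter (· ∉ K)) : Set ι) t) := by
    ext p
    simp only [mem_preimage, mem_pi, mem_prod, Finset.coe_filter, Finset.mem_coe, mem_ofPred_eq]
    constructor
    · intro h
      refine ⟨fun i hi => ?_, fun i hi => ?_⟩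
      · have := h i hi.1
        rwa [glue_mem hi.2] at this
      · have := h i hi.1
        rwa [glue_not_mem hi.2] at this
    · rintro ⟨h1, h2⟩ i hi
      by_cases hK : i ∈ K
      · rw [glue_mem hK]; exact h1 i ⟨hi, hK⟩
      · rw [glue_not_mem hK]; exact h2 i ⟨hi, hK⟩
  rw [hpre, Measure.prod_prod]
  unfold Pm
  rw [Measure.infinitePi_pi (μ := fun _ : ι => ν) (fun i _ => ht i),
    Measure.infinitePi_pi (μ := fun _ : ι => ν) (fun i _ => ht i)]
  exact Finset.prod_filter_mul_prod_filter_not s (· ∈ K) _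

/-- Resampling outside a fixed set. -/
theorem lintegral_glue (K : Set ι) {F : (ι → β) → ℝ≥0∞} (hF : Measurable F) :
    ∫⁻ ω, F ω ∂(Pm ν ι) = ∫⁻ ω, ∫⁻ ω', F (glue K ω ω') ∂(Pm ν ι) ∂(Pm ν ι) := by
  conv_lhs => rw [← map_glue ν K]
  rw [lintegral_map hF (measurable_glue K)]
  exact lintegral_prod _ (hF.comp (measurable_glue K)).aemeasurable

end meas

section disc

variable [MeasurableSpace β] [MeasurableSingletonClass β] [Countable β]

/-- A past-determined function is measurable, whatever the target. -/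
theorem Past.measurableSet {γ : Type*} {R : (ι → β) → Finset ι}
    {Y : (ι → β) → γ} (hY : Past R Y) (s : Set γ) : MeasurableSet (Y ⁻¹' s) := by
  classical
  -- union of cylinders
  have : Y ⁻¹' s = ⋃ (K : Finset ι), ⋃ (ζ : (↑K : Type _) → β),
      (if ∃ ω, R ω = K ∧ (∀ i : (↑K : Type _), ω i = ζ i) ∧ Y ω ∈ s then
        {ω : ι → β | ∀ i : (↑K : Type _), ω i = ζ i} else ∅) := by
    ext ω
    simp only [mem_preimage, mem_iUnion]
    constructor
    · intro h
      refine ⟨R ω, fun i => ω i, ?_⟩
      rw [if_pos ⟨ω, rfl, fun _ => rfl, h⟩]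
      exact fun _ => rfl
    · rintro ⟨K, ζ, h⟩
      split_ifs at h with h1
      · obtain ⟨ω₁, h2, h3, h4⟩ := h1
        have : Y ω = Y ω₁ := hY ω₁ ω fun i hi => by
          rw [h2] at hi
          rw [h3 ⟨i, hi⟩]
          exact h ⟨i, hi⟩
        rw [this]; exact h4
      · exact absurd h (notMem_empty _)
  rw [this]
  refine MeasurableSet.iUnion fun K => MeasurableSet.iUnion fun ζ => ?_
  split_ifs
  · have : {ω : ι → β | ∀ i : (↑K : Type _), ω i = ζ i} =
        ⋂ i : (↑K : Type _), (fun ω : ι → β => ω i) ⁻¹' {ζ i} := by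
      ext ω; simp
    rw [this]
    exact MeasurableSet.iInter fun i => (measurable_pi_apply _) (measurableSet_singleton _)
  · exact MeasurableSet.empty

theorem StopSet.past {R : (ι → β) → Finset ι} (hR : StopSet R) : Past R R := hR

theorem Past.measurable {γ : Type*} [MeasurableSpace γ] {R : (ι → β) → Finset ι}
    {Y : (ι → β) → γ} (hY : Past R Y) : Measurable Y :=
  fun s _ => hY.measurableSet s

theorem StopSet.measurableSet_eq {R : (ι → β) → Finset ι} (hR : StopSet R) (K : Finset ι) :
    MeasurableSet {ω | R ω = K} :=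
  Past.measurableSet hR.past {K}

theorem measurable_glue_stop {R : (ι → β) → Finset ι} (hR : StopSet R) :
    Measurable (fun p : (ι → β) × (ι → β) => glue (↑(R p.1)) p.1 p.2) := by
  classical
  refine measurable_pi_lambda _ fun i => ?_
  have h1 : MeasurableSet {p : (ι → β) × (ι → β) | i ∈ R p.1} :=
    (Past.measurableSet hR.past {K | i ∈ K}).preimage measurable_fst
  have : (fun p : (ι → β) × (ι → β) => glue (↑(R p.1)) p.1 p.2 i) =
      fun p => if i ∈ R p.1 then p.1 i else p.2 i := by
    funext p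
    by_cases h : i ∈ R p.1
    · rw [if_pos h, glue_mem (Finset.mem_coe.2 h)]
    · rw [if_neg h, glue_not_mem (fun h' => h (Finset.mem_coe.1 h'))]
  rw [this]
  exact Measurable.ite h1 ((measurable_pi_apply i).comp measurable_fst)
    ((measurable_pi_apply i).comp measurable_snd)

variable (ν : Measure β) [IsProbabilityMeasure ν]

/-- **Resampling outside a stopping set** (strong Markov property). -/
theorem lintegral_stop {R : (ι → β) → Finset ι} (hR : StopSet R) {F : (ι → β) → ℝ≥0∞}
    (hF : Measurable F) :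
    ∫⁻ ω, F ω ∂(Pm ν ι) = ∫⁻ ω, ∫⁻ ω', F (glue (↑(R ω)) ω ω') ∂(Pm ν ι) ∂(Pm ν ι) := by
  classical
  have hm : ∀ K : Finset ι, MeasurableSet {ω | R ω = K} := hR.measurableSet_eq
  have hdis : Pairwise (Function.onFun Disjoint fun K : Finset ι => {ω | R ω = K}) := by
    intro K K' hne
    refine Set.disjoint_left.2 fun ω h1 h2 => hne ?_
    exact h1.symm.trans h2
  have huni : (⋃ K : Finset ι, {ω | R ω = K}) = univ := by
    ext ω; simp
  have key : ∀ K : Finset ι, ∫⁻ ω in {ω | R ω = K}, F ω ∂(Pm ν ι) =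
      ∫⁻ ω in {ω | R ω = K}, ∫⁻ ω', F (glue (↑(R ω)) ω ω') ∂(Pm ν ι) ∂(Pm ν ι) := by
    intro K
    rw [← lintegral_indicator (hm K), ← lintegral_indicator (hm K),
      lintegral_glue ν (↑K) (hF.indicator (hm K))]
    refine lintegral_congr fun ω => ?_
    by_cases h : R ω = K
    · rw [indicator_of_mem (show ω ∈ {ω | R ω = K} from h)]
      refine lintegral_congr fun ω' => ?_
      rw [indicator_of_mem (show glue (↑K) ω ω' ∈ {ω | R ω = K} from
        (hR.glue_eq_iff K ω ω').2 h), h]
    · rw [indicator_of_notMem (show ω ∉ {ω | R ω = K} from h)]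
      rw [← lintegral_zero (μ := Pm ν ι)]
      refine lintegral_congr fun ω' => ?_
      exact indicator_of_notMem (show glue (↑K) ω ω' ∉ {ω | R ω = K} from
        fun h' => h ((hR.glue_eq_iff K ω ω').1 h')) _
  calc ∫⁻ ω, F ω ∂(Pm ν ι) = ∫⁻ ω in ⋃ K : Finset ι, {ω | R ω = K}, F ω ∂(Pm ν ι) := by
        rw [huni, Measure.restrict_univ]
    _ = ∑' K : Finset ι, ∫⁻ ω in {ω | R ω = K}, F ω ∂(Pm ν ι) := lintegral_iUnion hm hdis F
    _ = ∑' K : Finset ι, ∫⁻ ω in {ω | R ω = K},
          ∫⁻ ω', F (glue (↑(R ω)) ω ω') ∂(Pm ν ι) ∂(Pm ν ι) := tsum_congr key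
    _ = ∫⁻ ω in ⋃ K : Finset ι, {ω | R ω = K},
          ∫⁻ ω', F (glue (↑(R ω)) ω ω') ∂(Pm ν ι) ∂(Pm ν ι) := (lintegral_iUnion hm hdis _).symm
    _ = _ := by rw [huni, Measure.restrict_univ]

/-- The law does not change. -/
theorem map_stop {R : (ι → β) → Finset ι} (hR : StopSet R) :
    Measure.map (fun p : (ι → β) × (ι → β) => glue (↑(R p.1)) p.1 p.2)
      ((Pm ν ι).prod (Pm ν ι)) = Pm ν ι := by
  refine Measure.ext fun s hs => ?_
  have h := lintegral_stop ν hR (F := s.indicator 1) (measurable_one.indicator hs)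
  rw [lintegral_indicator_one hs] at h
  rw [h, ← lintegral_indicator_one hs, lintegral_map (measurable_one.indicator hs)
    (measurable_glue_stop hR)]
  exact lintegral_prod _
    ((measurable_one.indicator hs).comp (measurable_glue_stop hR)).aemeasurable

end disc

end Vale.Agent.P167.H558
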